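import Vale.Agent.P237.Quant.TailPartsLink
import Vale.Agent.P237.Quant.RowTables
import Vale.Agent.P237.Quant.EnvelopeTableData.N16
import Vale.Agent.P237.Quant.TailData.N23.tailN23P0
import Vale.Agent.P237.Quant.TailData.N23.tailN23P1
import Vale.Agent.P237.Quant.TailData.N23.tailN23P2
import Vale.Agent.P237.Quant.TailData.N23.tailN23P3
import Vale.Agent.P237.Quant.TailData.N23.tailN23N0
import Vale.Agent.P237.Quant.TailData.N23.tailN23N1

/-!
The tail inequalities of the rows of both sides in dimension 23. Generated.
-/

namespace Vale.Agent.P237.Quant

open TailCert TailData

/-- The tail inequalities of `negRow14` in dimension 23. -/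
theorem negRow14_tailAt23 : negRow14.TailAt 22 := by
  intro P hP
  simp only [negRow14, binsOf, List.mem_cons, List.not_mem_nil, or_false] at hP
  rcases hP with rfl | rfl
  · exact tailBin_negParts tailN23N0_check tailN23N0_parts envTable23_check (by decide +kernel)
  · exact tailBin_negParts tailN23N1_check tailN23N1_parts envTable23_check (by decide +kernel)

/-- The tail inequalities of `posRow20` in dimension 23. -/
theorem posRow20_tailAt23 : posRow20.TailAt 22 := by
  intro P hP
  simp only [posRow20, posRowA, posCuts14, posCuts16, binsOf, List.mem_cons, List.not_mem_nil, or_false] at hP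
  rcases hP with rfl | rfl | rfl | rfl
  · exact tailBin_posParts tailN23P0_check tailN23P0_parts envTable23_check (by decide +kernel)
  · exact tailBin_posParts tailN23P1_check tailN23P1_parts envTable23_check (by decide +kernel)
  · exact tailBin_posParts tailN23P2_check tailN23P2_parts envTable23_check (by decide +kernel)
  · exact tailBin_posParts tailN23P3_check tailN23P3_parts envTable23_check (by decide +kernel)

end Vale.Agent.P237.Quant
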